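import Crest.Agent.N250.Tb.T2

/-!
# Row 250 (helper52): the tube of a transversal field, ambient constraint functions
-/

set_option autoImplicit false
open MeasureTheory Set Filter Topology Function Metric
open scoped ContDiff InnerProductSpace
open Crest.GeometryTopology.MCF

noncomputable section

namespace Crest.Agent.N250.Cn

variable {S : Mv} {t : ℝ} {Z : ST → E} {y : E}

/-- `(y, s) ↦ y + s Z(y)` -/
def tm (Z : ST → E) (t : ℝ) (q : ST) : E := q.1 + q.2 • Z (q.1, t)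

theorem loc (hS : S.Reg) (hZ : S.Sm Z) (hy : y ∈ S.sl t) (hn : ⟪S.n (y, t), Z (y, t)⟫_ℝ ≠ 0) :
    ∃ O : Set ST, IsOpen O ∧ (y, 0) ∈ O ∧ InjOn (tm Z t) (O ∩ {q | q.1 ∈ S.sl t}) ∧
      ∀ q ∈ O, q.1 ∈ S.sl t → ∃ k : E → ST, ContDiffAt ℝ ∞ k (tm Z t q) ∧ k (tm Z t q) = q ∧
        ∀ᶠ w in 𝓝 (tm Z t q), (k w).1 ∈ S.sl t ∧ tm Z t (k w) = w := by
  obtain ⟨W, f, -, hW, hyW, hf, -, hmem, -, -, hker⟩ := Tb.exists_sl hS hy
  obtain ⟨U, Y, hU, hyU, hY, hZY⟩ := hS.exists_ext hZ (p := (y, t)) hy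
  have hι : ContDiff ℝ ∞ fun w : E => ((w, t) : ST) := contDiff_id.prodMk contDiff_const
  have hU' : IsOpen {w : E | (w, t) ∈ U} := hU.preimage hι.continuous
  have hN : ContDiffOn ℝ ∞ (fun w : E => Y (w, t)) {w | (w, t) ∈ U} :=
    hY.comp hι.contDiffOn fun _ h => h
  let g : ST → ST := fun q => (q.1 + q.2 • Y (q.1, t), f q.1)
  let O : Set ST := {q | q.1 ∈ W ∧ (q.1, t) ∈ U}
  have hO : IsOpen O := (hW.inter hU').preimage continuous_fst
  have hg : ContDiffOn ℝ ∞ g O :=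
    (contDiffOn_fst.add (contDiffOn_snd.smul (hN.comp contDiffOn_fst fun _ h => h.2))).prodMk
      (hf.comp contDiffOn_fst fun _ h => h.1)
  have dN := ((hN.contDiffAt (hU'.mem_nhds hyU)).differentiableAt (by simp)).hasFDerivAt
  have df := ((hf.contDiffAt (hW.mem_nhds hyW)).differentiableAt (by simp)).hasFDerivAt
  have hi : Injective (fderiv ℝ g (y, 0)) := by
    have d1 : HasFDerivAt (Prod.fst : ST → E) (ContinuousLinearMap.fst ℝ E ℝ) (y, 0) :=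
      hasFDerivAt_fst
    have d2 : HasFDerivAt (Prod.snd : ST → ℝ) (ContinuousLinearMap.snd ℝ E ℝ) (y, 0) :=
      hasFDerivAt_snd
    have d := (d1.add (d2.smul (HasFDerivAt.comp (y, 0) dN d1))).prodMk
      (HasFDerivAt.comp (y, 0) df d1)
    rw [show fderiv ℝ g (y, 0) = _ from d.fderiv, injective_iff_map_eq_zero]
    rintro ⟨v, σ⟩ h
    have h1 : v + σ • Y (y, t) = 0 := by simpa using congrArg Prod.fst h
    have h2 : fderiv ℝ f y v = 0 := by simpa using congrArg Prod.snd h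
    have h3 := hker y hyW hy v h2
    have h5 := congrArg (fun w => ⟪S.n (y, t), w⟫_ℝ) h1
    simp only [inner_add_right, inner_smul_right, h3, inner_zero_right, zero_add,
      ← hZY _ hyU hy] at h5
    have h6 : σ = 0 := (mul_eq_zero.1 h5).resolve_right hn
    rw [h6, zero_smul, add_zero] at h1
    exact Prod.ext h1 h6
  obtain ⟨G, G1, G2, G3, G4⟩ := exists_localDiffeo hO hg (z := (y, 0)) ⟨hyW, hyU⟩ hi
  have e0 : ∀ q ∈ G.source, q.1 ∈ S.sl t → G q = (tm Z t q, 0) := fun q hq hM => by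
    rw [G3]; exact Prod.ext (by simp [g, tm, hZY _ (G2 hq).2 hM]) ((hmem _ (G2 hq).1).1 hM)
  refine ⟨G.source, G.open_source, G1, fun q hq q' hq' e =>
    G.injOn hq.1 hq'.1 (by rw [e0 q hq.1 hq.2, e0 q' hq'.1 hq'.2, e]), fun q hq hM => ?_⟩
  have hT : ((tm Z t q, 0) : ST) ∈ G.target := e0 q hq hM ▸ G.map_source hq
  have hκ : ContDiff ℝ ∞ fun w : E => ((w, 0) : ST) := contDiff_id.prodMk contDiff_const
  refine ⟨fun w => G.symm (w, 0), ContDiffAt.comp _ (g := G.symm)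
    (G4.contDiffAt (G.open_target.mem_nhds hT)) hκ.contDiffAt, ?_, ?_⟩
  · exact (congrArg G.symm (e0 q hq hM)).symm.trans (G.left_inv hq)
  · filter_upwards [hκ.continuous.continuousAt.preimage_mem_nhds (G.open_target.mem_nhds hT)]
      with w hw
    have a1 := G.map_target hw
    have a2 := G.right_inv hw
    have a3 : (G.symm (w, 0)).1 ∈ S.sl t :=
      (hmem _ (G2 a1).1).2 (by rw [G3] at a2; exact congrArg Prod.snd a2)
    exact ⟨a3, congrArg Prod.fst ((e0 _ a1 a3).symm.trans a2)⟩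

/-- coordinates `x = pr x + sd x • Z (pr x)` on the tube of width `δ` over `B` -/
structure TZ (S : Mv) (Z : ST → E) (t : ℝ) (B : Set E) (δ : ℝ) (W : Set E) (pr : E → E)
    (sd : E → ℝ) : Prop where
  op : IsOpen W
  spr : ContDiffOn ℝ ∞ pr W
  ssd : ContDiffOn ℝ ∞ sd W
  mem : ∀ x ∈ W, pr x ∈ S.sl t ∧ pr x ∈ B ∧ |sd x| < δ
  dec : ∀ x ∈ W, pr x + sd x • Z (pr x, t) = x
  inv : ∀ y ∈ S.sl t, y ∈ B → ∀ s, |s| < δ →
    y + s • Z (y, t) ∈ W ∧ pr (y + s • Z (y, t)) = y ∧ sd (y + s • Z (y, t)) = s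

theorem cont_sl {G : Type} [NormedAddCommGroup G] [NormedSpace ℝ G] {f : ST → G} (hf : S.Sm f)
    (t : ℝ) : ContinuousOn (fun y : E => f (y, t)) (S.sl t) :=
  (ContDiffOn.continuousOn hf).comp (by fun_prop) fun _ h => h

theorem exists_bd (hZ : S.Sm Z) (hc : IsClosed (S.sl t)) {K : Set E} (hK : IsCompact K) :
    ∃ M, 0 < M ∧ ∀ y ∈ S.sl t, y ∈ K → ‖Z (y, t)‖ ≤ M := by
  obtain ⟨M, hM⟩ := (hK.inter_left hc).exists_bound_of_continuousOn
    ((cont_sl hZ t).mono inter_subset_left)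
  exact ⟨|M| + 1, by positivity, fun y a b => (hM y ⟨a, b⟩).trans (by linarith [le_abs_self M])⟩

theorem exists_TZ (hS : S.Reg) (hZ : S.Sm Z) (hn : ∀ y ∈ S.sl t, ⟪S.n (y, t), Z (y, t)⟫_ℝ ≠ 0)
    (hc : IsClosed (S.sl t)) (R : ℝ) : ∃ δ, 0 < δ ∧ ∃ W pr sd, TZ S Z t (ball 0 R) δ W pr sd := by
  have hK : IsCompact (S.sl t ∩ closedBall (0 : E) R) := (isCompact_closedBall 0 R).inter_left hc
  choose O hO h0 hi hk using fun y : S.sl t => loc hS hZ y.2 (hn y y.2)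
  obtain ⟨l, hl, hL⟩ := lebesgue_number_lemma_of_metric
    (hK.image (f := fun y : E => ((y, 0) : ST)) (by fun_prop)) hO
    (by rintro _ ⟨y, hy, rfl⟩; exact mem_iUnion.2 ⟨⟨y, hy.1⟩, h0 _⟩)
  obtain ⟨M, hM, hb⟩ := exists_bd hZ hc (isCompact_closedBall (0 : E) R)
  have hδ : 0 < l / (2 * M + 1) := by positivity
  have hδl : l / (2 * M + 1) ≤ l := div_le_self hl.le (by linarith)
  have hδM : l / (2 * M + 1) * (2 * M + 1) = l := div_mul_cancel₀ _ (by positivity)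
  generalize l / (2 * M + 1) = δ at hδ hδl hδM
  let A : Set ST := {q | q.1 ∈ S.sl t ∧ q.1 ∈ ball (0 : E) R ∧ |q.2| < δ}
  have hA : ∀ q ∈ A, ∃ i, ball ((q.1, 0) : ST) l ⊆ O i := fun q hq =>
    hL _ ⟨q.1, ⟨hq.1, ball_subset_closedBall hq.2.1⟩, rfl⟩
  have hm : ∀ q ∈ A, ∀ x : E, dist q.1 x < l → q ∈ ball ((x, 0) : ST) l := fun q hq x hx => by
    rw [mem_ball, Prod.dist_eq, max_lt_iff, Real.dist_eq, sub_zero]
    exact ⟨hx, hq.2.2.trans_le hδl⟩
  have hs : ∀ q ∈ A, ‖q.2 • Z (q.1, t)‖ ≤ δ * M := fun q hq => by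
    rw [norm_smul, Real.norm_eq_abs]
    exact mul_le_mul hq.2.2.le (hb _ hq.1 (ball_subset_closedBall hq.2.1)) (norm_nonneg _) hδ.le
  have inj : InjOn (tm Z t) A := fun q hq q' hq' e => by
    obtain ⟨i, hi'⟩ := hA q hq
    refine hi i ⟨hi' (hm q hq _ (by simpa using hl)), hq.1⟩ ⟨hi' (hm q' hq' _ ?_), hq'.1⟩ e
    have e1 : q'.1 - q.1 = q.2 • Z (q.1, t) - q'.2 • Z (q'.1, t) := by
      rw [sub_eq_sub_iff_add_eq_add, add_comm (q.2 • _)]; exact e.symm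
    rw [dist_eq_norm, e1]
    linarith [norm_sub_le (q.2 • Z (q.1, t)) (q'.2 • Z (q'.1, t)), hs q hq, hs q' hq']
  have key : ∀ x ∈ tm Z t '' A, tm Z t '' A ∈ 𝓝 x ∧ ContDiffAt ℝ ∞ (invFunOn (tm Z t) A) x := by
    rintro _ ⟨q, hq, rfl⟩
    obtain ⟨i, hi'⟩ := hA q hq
    obtain ⟨k, k1, k2, k3⟩ := hk i q (hi' (hm q hq _ (by simpa using hl))) hq.1
    have hop : IsOpen {q : ST | q.1 ∈ ball (0 : E) R ∧ |q.2| < δ} :=
      (isOpen_ball.preimage continuous_fst).inter (isOpen_lt continuous_snd.abs continuous_const)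
    have ev : ∀ᶠ w in 𝓝 (tm Z t q), w ∈ tm Z t '' A ∧ invFunOn (tm Z t) A w = k w := by
      filter_upwards [k3, k1.continuousAt.eventually_mem (hop.mem_nhds (by rw [k2]; exact hq.2))]
        with w a b
      have c : k w ∈ A := ⟨a.1, b⟩
      exact ⟨⟨k w, c, a.2⟩, by conv_lhs => rw [← a.2]
                               exact inj.leftInvOn_invFunOn c⟩
    exact ⟨ev.mono fun _ h => h.1, k1.congr_of_eventuallyEq (ev.mono fun _ h => h.2)⟩
  refine ⟨δ, hδ, tm Z t '' A, fun x => (invFunOn (tm Z t) A x).1,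
    fun x => (invFunOn (tm Z t) A x).2, isOpen_iff_mem_nhds.2 fun x hx => (key x hx).1,
    fun x hx => (key x hx).2.fst.contDiffWithinAt, fun x hx => (key x hx).2.snd.contDiffWithinAt,
    fun x hx => invFunOn_mem hx, fun x hx => invFunOn_eq hx, fun y a b s c => ?_⟩
  have m : ((y, s) : ST) ∈ A := ⟨a, b, c⟩
  have e := inj.leftInvOn_invFunOn m
  exact ⟨⟨_, m, rfl⟩, congrArg Prod.fst e, congrArg Prod.snd e⟩

theorem TZ.exists_amb {B W K : Set E} {δ η : ℝ} {pr : E → E} {sd : E → ℝ}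
    (h : TZ S Z t B δ W pr sd) (hZ : S.Sm Z) (hc : IsClosed (S.sl t)) (hK : IsCompact K)
    (hKB : K ⊆ B) (hη : 0 < η) (hηδ : 2 * η < δ) {φ : ST → ℝ} (hφ : S.Sm φ)
    (h0 : ∀ x ∈ S.sl t, x ∉ K → φ (x, t) = 0) : ∃ g : E → ℝ, ContDiff ℝ ∞ g ∧
      HasCompactSupport g ∧ tsupport g ⊆ tm Z t '' ((S.sl t ∩ K) ×ˢ closedBall 0 (2 * η)) ∧
      ∀ y ∈ S.sl t, y ∈ B → ∀ s, |s| ≤ η → g (y + s • Z (y, t)) = s * φ (y, t) := by
  let χ : ContDiffBump (0 : ℝ) := ⟨η, 2 * η, hη, by linarith⟩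
  have hC : IsCompact (tm Z t '' ((S.sl t ∩ K) ×ˢ closedBall 0 (2 * η))) :=
    ((hK.inter_left hc).prod (isCompact_closedBall _ _)).image_of_continuousOn
      (continuousOn_fst.add (continuousOn_snd.smul
        ((cont_sl hZ t).comp continuousOn_fst fun _ h => h.1.1)))
  have hCW : tm Z t '' ((S.sl t ∩ K) ×ˢ closedBall 0 (2 * η)) ⊆ W := by
    rintro _ ⟨q, hq, rfl⟩
    exact (h.inv _ hq.1.1 (hKB hq.1.2) _ (lt_of_le_of_lt (by simpa using hq.2) hηδ)).1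
  have hs : support (W.indicator fun x => χ (sd x) * (sd x * φ (pr x, t))) ⊆
      tm Z t '' ((S.sl t ∩ K) ×ˢ closedBall 0 (2 * η)) := fun x hx => by
    have hW : x ∈ W := mem_of_indicator_ne_zero hx
    rw [mem_support, indicator_of_mem hW] at hx
    refine ⟨(pr x, sd x), ⟨⟨(h.mem x hW).1, by_contra fun hn => hx ?_⟩, by_contra fun hn => hx ?_⟩,
      h.dec x hW⟩
    · rw [h0 _ (h.mem x hW).1 hn, mul_zero, mul_zero]
    · rw [χ.zero_of_le_dist (not_le.1 (mt mem_closedBall.2 hn)).le, zero_mul]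
  have ht := closure_minimal hs hC.isClosed
  refine ⟨W.indicator fun x => χ (sd x) * (sd x * φ (pr x, t)),
    contDiff_iff_contDiffAt.2 fun x => ?_, hC.of_isClosed_subset (isClosed_tsupport _) ht, ht,
    fun y a b s c => ?_⟩
  · by_cases hx : x ∈ tsupport (W.indicator fun x => χ (sd x) * (sd x * φ (pr x, t)))
    swap
    · exact contDiffAt_const.congr_of_eventuallyEq (notMem_tsupport_iff_eventuallyEq.1 hx)
    have hW := h.op.mem_nhds (hCW (ht hx))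
    have h1 : ContDiffOn ℝ ∞ (fun x => χ (sd x) * (sd x * φ (pr x, t))) W :=
      (χ.contDiff.comp_contDiffOn h.ssd).mul (h.ssd.mul
        (ContDiffOn.comp hφ (h.spr.prodMk contDiffOn_const) fun x hx => (h.mem x hx).1))
    exact (h1.contDiffAt hW).congr_of_eventuallyEq
      (eventually_of_mem hW fun x hx => indicator_of_mem hx _)
  · obtain ⟨i1, i2, i3⟩ := h.inv y a b s (by linarith)
    rw [indicator_of_mem i1, i2, i3, χ.one_of_mem_closedBall (by simpa using c), one_mul]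

/-- ambient functions that are linear along `Z` -/
theorem exists_amb (hS : S.Reg) (hZ : S.Sm Z)
    (hn : ∀ y ∈ S.sl t, ⟪S.n (y, t), Z (y, t)⟫_ℝ ≠ 0) (hc : IsClosed (S.sl t)) {K : Set E}
    (hK : IsCompact K) (R : ℝ) {η : ℝ} (hη : 0 < η) : ∃ δ, 0 < δ ∧ ∀ φ : ST → ℝ, S.Sm φ →
      (∀ x ∈ S.sl t, x ∉ K → φ (x, t) = 0) → ∃ g : E → ℝ, ContDiff ℝ ∞ g ∧
        HasCompactSupport g ∧ tsupport g ⊆ cthickening η K ∧
        ∀ y ∈ S.sl t, ‖y‖ ≤ R → ∀ s, |s| ≤ δ → g (y + s • Z (y, t)) = s * φ (y, t) := by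
  obtain ⟨r, hr⟩ := hK.isBounded.subset_ball_lt R (0 : E)
  obtain ⟨δ, hδ, W, pr, sd, h⟩ := exists_TZ hS hZ hn hc r
  obtain ⟨M, hM, hb⟩ := exists_bd hZ hc hK
  have h1 : 0 < min (δ / 3) (η / (2 * M)) := by positivity
  have h2 := min_le_left (δ / 3) (η / (2 * M))
  have h3 := (le_div_iff₀ (by positivity)).1 (min_le_right (δ / 3) (η / (2 * M)))
  refine ⟨_, h1, fun φ hφ h0 => ?_⟩
  obtain ⟨g, g1, g2, g3, g4⟩ := h.exists_amb hZ hc hK hr.2 h1 (by linarith) hφ h0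
  refine ⟨g, g1, g2, g3.trans ?_, fun y a b => g4 y a (mem_ball_zero_iff.2 (b.trans_lt hr.1))⟩
  rintro _ ⟨q, hq, rfl⟩
  refine mem_cthickening_of_dist_le _ q.1 _ _ hq.1.2 ?_
  rw [tm, dist_eq_norm, add_sub_cancel_left, norm_smul]
  have := mul_le_mul (mem_closedBall_zero_iff.1 hq.2) (hb _ hq.1.1 hq.1.2) (norm_nonneg _)
    (by positivity)
  linarith

/-- `g` is linear along `Z` with slope `φ`, on the scale `δ (1 + |y|)` -/
def Lin (S : Mv) (Z : ST → E) (t δ : ℝ) (φ : ST → ℝ) (g : E → ℝ) : Prop :=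
  ∀ y ∈ S.sl t, ∀ s, |s| ≤ δ * (1 + ‖y‖) → g (y + s • Z (y, t)) = s * φ (y, t)

/-- global form, for a bounded field -/
theorem exists_lin (hS : S.Reg) (hZ : S.Sm Z)
    (hn : ∀ y ∈ S.sl t, ⟪S.n (y, t), Z (y, t)⟫_ℝ ≠ 0) (hc : IsClosed (S.sl t)) {C : ℝ}
    (hC : ∀ y ∈ S.sl t, ‖Z (y, t)‖ ≤ C) {K : Set E} (hK : IsCompact K) {η : ℝ} (hη : 0 < η) :
    ∃ δ, 0 < δ ∧ ∀ φ : ST → ℝ, S.Sm φ → (∀ x ∈ S.sl t, x ∉ K → φ (x, t) = 0) →
      ∃ g : E → ℝ, ContDiff ℝ ∞ g ∧ HasCompactSupport g ∧ tsupport g ⊆ cthickening η K ∧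
        Lin S Z t δ φ g := by
  obtain ⟨r, hr, hr'⟩ := (hK.cthickening (r := η)).isBounded.subset_ball_lt 1 (0 : E)
  obtain ⟨δ, hδ, h⟩ := exists_amb hS hZ hn hc hK (2 * r) hη
  have hC1 : 0 < |C| + 1 := by positivity
  have h1 : 0 < min (δ / (1 + 2 * r)) (1 / (4 * (|C| + 1))) := by positivity
  have h2 := (le_div_iff₀ (by positivity)).1 (min_le_left (δ / (1 + 2 * r)) (1 / (4 * (|C| + 1))))
  have h3 := (le_div_iff₀ (by positivity)).1 (min_le_right (δ / (1 + 2 * r)) (1 / (4 * (|C| + 1))))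
  refine ⟨_, h1, fun φ hφ h0 => ?_⟩
  obtain ⟨g, g1, g2, g3, g4⟩ := h φ hφ h0
  refine ⟨g, g1, g2, g3, fun y a s b => ?_⟩
  generalize min (δ / (1 + 2 * r)) (1 / (4 * (|C| + 1))) = ε at h1 h2 h3 b
  rcases le_or_gt ‖y‖ (2 * r) with c | c
  · exact g4 y a c s (by nlinarith)
  · have k1 : ‖s • Z (y, t)‖ ≤ ε * (1 + ‖y‖) * (|C| + 1) := by
      rw [norm_smul]
      exact mul_le_mul b ((hC y a).trans (by linarith [le_abs_self C])) (norm_nonneg _)
        (by positivity)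
    have k2 := norm_sub_le (y + s • Z (y, t)) (s • Z (y, t))
    rw [add_sub_cancel_right] at k2
    have k3 : ε * (1 + ‖y‖) * (|C| + 1) ≤ (1 + ‖y‖) / 4 := by nlinarith [norm_nonneg y]
    rw [h0 y a fun hy => by
        linarith [mem_ball_zero_iff.1 (hr' (self_subset_cthickening K hy))],
      mul_zero]
    exact image_eq_zero_of_notMem_tsupport fun hy => by
      linarith [mem_ball_zero_iff.1 (hr' (g3 hy))]

end Crest.Agent.N250.Cn

end
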