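import Crest.Agent.N250.Am.Fv
import Crest.Agent.N250.Rm.Br
import Crest.Agent.N250.Lin.Fam
import Crest.Agent.N250.Wt.Grn

/-!
# Row 250 (helper62): coercive families give constraint functions
-/

set_option autoImplicit false
open MeasureTheory Set Filter Topology
open scoped ContDiff InnerProductSpace
open Crest.GeometryTopology.MCF

noncomputable section

namespace Crest.Agent.N250.Cn1

open Wr Rm

variable {S : Mv} (P : Prm S)

theorem exp_F (p : S.sl 0) : Real.exp (P.geo.gd.F p) = 4 * Real.pi * gau 0 1 (p : E) := by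
  have := Real.pi_pos
  change Real.exp (-(mv P.shr.reg).x2.1 p / 4) = _
  rw [mv_x2, gau, mul_one, mul_one, sub_zero, mul_inv_cancel_left₀ (by positivity)]

theorem int_nu {F : S.sl 0 → ℝ} {F' : E → ℝ}
    (h : ∀ p : S.sl 0, F p * (4 * Real.pi * gau 0 1 (p : E)) = F' p) :
    ∫ p, F p ∂P.geo.gd.nu = ∫ x, F' x ∂S.mu 0 := by
  rw [Lin.Gd.int_nu, ← P.shr.reg.imm_integral 0 F']
  exact integral_congr_ae (.of_forall fun p => by simp only [exp_F, h])

theorem tst_rs {u : ST → ℝ} (hu : S.Sm u) (hc : S.CS u {0}) : P.geo.gd.M.Tst (S.rs 0 u) := by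
  obtain ⟨K, h1, -, h3⟩ := hc
  have hcl : IsClosed (S.sl 0) := P.shr.closed.preimage (Continuous.prodMk_left 0)
  refine ⟨P.shr.reg.imm_sm 0 hu, HasCompactSupport.intro
    (hcl.isClosedEmbedding_subtypeVal.isCompact_preimage (h1.image continuous_fst)) fun p hp => ?_⟩
  exact h3 (p, 0) p.2 rfl fun hK => hp ⟨_, hK, rfl⟩

theorem fv_eq {φ : ST → ℝ} {g : E → ℝ} {Z : ST → E} {δ : ℝ} (hS : S.Reg) (hδ : 0 < δ)
    (hg : ContDiff ℝ ∞ g) (hl : Cn.Lin S Z 0 δ φ g) {y : E} (hy : y ∈ S.sl 0)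
    (hn : ⟪S.n (y, 0), Z (y, 0)⟫_ℝ = 1) :
    S.fv (fun y => 4 * Real.pi * gau 0 1 y * g y) (y, 0) =
      φ (y, 0) * (4 * Real.pi * gau 0 1 y) := by
  have h1 : Cn.Lin S Z 0 δ (fun q => 4 * Real.pi * φ q) fun y => 4 * Real.pi * g y :=
    fun y hy s hs => by simp only [hl y hy s hs]; ring
  have h2 := Am.fv_lin hS h1 hδ ((hg.differentiable (by simp)).const_mul _) hy hn
  rw [show (fun y => 4 * Real.pi * gau 0 1 y * g y) =
    fun y => gau 0 1 y * (4 * Real.pi * g y) from funext fun y => by ring, h2]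
  ring

/-- coercive families give constraint functions -/
theorem cons_of {κ : Type} [Fintype κ] {φ : κ → P.geo.R} (h : P.geo.Fam φ) {n : ℕ} (σ : Fin n ≃ κ)
    {g : κ → E → ℝ} {Z : ST → E} {δ : ℝ} (hδ : 0 < δ) (hg : ∀ k, ContDiff ℝ ∞ (g k))
    (hc : ∀ k, HasCompactSupport (g k)) (hl : ∀ k, Cn.Lin S Z 0 δ (lf P (φ k)) (g k))
    (hn : ∀ y ∈ S.sl 0, ⟪S.n (y, 0), Z (y, 0)⟫_ℝ = 1) :
    Cons S fun i y => 4 * Real.pi * gau 0 1 y * g (σ i) y := by
  have pi0 := Real.pi_pos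
  have hfv : ∀ k (p : S.sl 0), S.fv (fun y => 4 * Real.pi * gau 0 1 y * g k y) (p, 0) =
      (φ k).1 p * (4 * Real.pi * gau 0 1 (p : E)) := fun k p => by
    rw [fv_eq P.shr.reg hδ (hg k) (hl k) p.2 (hn p p.2), lf_apply]
  refine ⟨fun i => (contDiff_const.mul Am.contDiff_gau).mul (hg _), fun i => (hc _).mul_left,
    fun c hc => ?_, ?_⟩
  · have := Lin.Gd.li_zero h.li (x := fun k => c (σ.symm k)) fun p => by
      have e := hc p p.2
      simp only [hfv, ← mul_assoc, ← Finset.sum_mul, ← exp_F P] at e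
      rw [← σ.sum_comp]
      simpa only [σ.symm_apply_apply] using (mul_eq_zero.1 e).resolve_right (Real.exp_pos _).ne'
    funext i
    simpa using congrFun this (σ i)
  · obtain ⟨c, c0, hc⟩ := h.coer'
    refine ⟨c, c0, fun u hu hs => ?_⟩
    have t := tst_rs P hu hs
    have key := hc _ (Lin.Gd.tst_h1 t)
    have eg : ∀ p : S.sl 0, P.geo.gd.M.pre.gam (S.rs 0 u) (S.rs 0 u) p = S.gam u u (p, 0) :=
      fun p => congrFun (P.shr.reg.imm_gam 0 hu hu) p
    have e1 : P.geo.gd.n0 (S.rs 0 u) + P.geo.gd.n1 (S.rs 0 u) = 4 * Real.pi *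
        ∫ x, (u (x, 0) ^ 2 + S.gam u u (x, 0)) * gau 0 1 x ∂S.mu 0 := by
      rw [Lin.Gd.n0, Lin.Gd.n1, ← integral_add (Lin.Gd.tst_intg (Lin.Gd.tst_sq t))
        (Lin.Gd.tst_intg (Lin.Gd.tst_g1 t)), ← integral_const_mul]
      refine int_nu P fun p => ?_
      rw [Lin.Gd.g1, eg, Mv.rs_apply]
      ring
    have e2 : P.geo.gd.Q (S.rs 0 u) (S.rs 0 u) = 4 * Real.pi *
        ∫ x, (S.gam u u (x, 0) - (S.A2 (x, 0) + 1 / 2) * u (x, 0) ^ 2) * gau 0 1 x ∂S.mu 0 := by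
      rw [Lin.Gd.Q, ← integral_const_mul]
      refine int_nu P fun p => ?_
      have : P.geo.gd.c p = S.A2 (p, 0) + 1 / 2 := by
        change (mv P.shr.reg).a2.1 p + 1 / 2 = _
        rw [mv_a2, mkR_apply]
      rw [eg, this, Mv.rs_apply]
      ring
    have e3 : ∀ k, P.geo.gd.ip (φ k).1 (S.rs 0 u) =
        ∫ x, S.fv (fun y => 4 * Real.pi * gau 0 1 y * g k y) (x, 0) * u (x, 0) ∂S.mu 0 :=
      fun k => int_nu P fun p => by rw [hfv, Mv.rs_apply]; ring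
    simp only [e1, e2, e3] at key
    rw [← σ.sum_comp] at key
    have n0 : 0 ≤ c⁻¹ * ∑ i, (∫ x, S.fv (fun y => 4 * Real.pi * gau 0 1 y * g (σ i) y) (x, 0) *
      u (x, 0) ∂S.mu 0) ^ 2 := by positivity
    refine le_of_mul_le_mul_left ?_ (show 0 < 4 * Real.pi by positivity)
    nlinarith [Real.pi_gt_three]

end Crest.Agent.N250.Cn1

end
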