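import Crest.Agent.N250.Wr.Geo
import Crest.Agent.N250.Wt.Grn
import Crest.Agent.N250.Lin.Fam
import Crest.Agent.N250.R.One

/-!
# Row 250 (helper52): `Cons` from a coercive family
-/

set_option autoImplicit false
open MeasureTheory Set Filter Topology Metric
open scoped ContDiff InnerProductSpace
open Crest.GeometryTopology.MCF

noncomputable section

namespace Crest.Agent.N250.Cn

variable {S : Mv} (P : Wr.Prm S)

theorem gau_eq (x : E) : gau 0 1 x = (4 * Real.pi)⁻¹ * Real.exp (-‖x‖ ^ 2 / 4) := by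
  simp [gau]

/-- Gaussian integrals on the shrinker -/
theorem int_gau (h : E → ℝ) : ∫ x, h x * gau 0 1 x ∂S.mu 0 =
    (4 * Real.pi)⁻¹ * ∫ p : S.sl 0, h p ∂P.geo.gd.nu := by
  rw [Lin.Gd.int_nu, ← integral_const_mul, ← P.shr.reg.imm_integral 0]
  refine integral_congr_ae (.of_forall fun p => ?_)
  have e : P.geo.gd.F p = -‖(p : E)‖ ^ 2 / 4 := by rw [← Wr.mv_x2 P.shr.reg p]; rfl
  simp only [e, gau_eq]
  ring

theorem tst_rs {u : ST → ℝ} (hu : S.Sm u) (hc : S.CS u {0}) : P.geo.M.Tst (S.rs 0 u) := by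
  obtain ⟨K, h1, -, h3⟩ := hc
  have hcl : IsClosed (S.sl 0) := P.shr.closed.preimage (Continuous.prodMk_left 0)
  refine ⟨P.shr.reg.imm_sm 0 hu, HasCompactSupport.intro
    (hcl.isClosedEmbedding_subtypeVal.isCompact_preimage (h1.image continuous_fst))
    fun x hx => h3 (x, 0) x.2 rfl fun h => hx ⟨_, h, rfl⟩⟩

theorem cons_of {κ : Type} [Fintype κ] {ψ : κ → P.geo.R} (hψ : P.geo.Fam ψ) {n : ℕ}
    (σ : Fin n ≃ κ) {f : κ → E → ℝ} (h1 : ∀ k, ContDiff ℝ ∞ (f k))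
    (h2 : ∀ k, HasCompactSupport (f k))
    (h3 : ∀ k (x : S.sl 0), S.fv (f k) (x, 0) = gau 0 1 x * (ψ k).1 x) :
    Cons S fun i => f (σ i) where
  sm i := h1 _
  cs i := h2 _
  indep c hc := by
    have e : ∑ k, c (σ.symm k) • (ψ k).1 = 0 := funext fun x => by
      have a := hc x x.2
      simp only [h3, mul_left_comm _ (gau 0 1 x), ← Finset.mul_sum] at a
      have b : gau 0 1 x ≠ 0 := by rw [gau_eq]; positivity
      rw [Finset.sum_apply, ← σ.sum_comp]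
      simpa using (mul_eq_zero.1 a).resolve_left b
    exact funext fun i => by simpa using Fintype.linearIndependent_iff.1 hψ.li _ e (σ i)
  coer := by
    obtain ⟨c, hc, h⟩ := Lin.Gd.Fam.coer' hψ
    have ha : 0 < (4 * Real.pi)⁻¹ := by positivity
    have ha1 : (4 * Real.pi)⁻¹ ≤ 1 := inv_le_one_of_one_le₀ (by linarith [Real.pi_gt_three])
    refine ⟨c * (4 * Real.pi)⁻¹, by positivity, fun u hu hs => ?_⟩
    have t := tst_rs P hu hs
    have hH := Lin.Gd.tst_h1 (G := P.geo.gd) t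
    have k := h _ hH
    have g1 : P.geo.gd.g1 (S.rs 0 u) = S.rs 0 (S.gam u u) := P.shr.reg.imm_gam 0 hu hu
    have e1 : ∫ p : S.sl 0, (u (p, 0) ^ 2 + S.gam u u (p, 0)) ∂P.geo.gd.nu =
        P.geo.gd.n0 (S.rs 0 u) + P.geo.gd.n1 (S.rs 0 u) := by
      rw [Lin.Gd.n0, Lin.Gd.n1, ← integral_add hH.toS2.sq hH.d1, g1]; rfl
    have e2 : ∫ p : S.sl 0, (S.gam u u (p, 0) - (S.A2 (p, 0) + 1 / 2) * u (p, 0) ^ 2)
        ∂P.geo.gd.nu = P.geo.gd.Q (S.rs 0 u) (S.rs 0 u) := by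
      refine integral_congr_ae (.of_forall fun p => ?_)
      have a : P.geo.gd.c p = S.A2 (p, 0) + 1 / 2 :=
        congrArg (fun w : P.geo.R => w.1 p + 1 / 2) (Wr.mv_a2 P.shr.reg)
      simp only [a, sq]
      exact congrArg (· - _) (congrFun g1 p).symm
    have e3 : ∀ k, ∫ x, S.fv (f k) (x, 0) * u (x, 0) ∂S.mu 0 =
        (4 * Real.pi)⁻¹ * P.geo.gd.ip (ψ k).1 (S.rs 0 u) := fun k => by
      have a := int_gau P fun x => S.lift 0 (ψ k).1 (x, 0) * u (x, 0)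
      rw [← P.shr.reg.imm_integral 0] at a ⊢
      have b : ∀ x : S.sl 0, S.lift 0 (ψ k).1 (x, 0) = (ψ k).1 x := fun x => Mv.lift_apply _ x.2
      simp only [h3, b] at a ⊢
      refine Eq.trans (integral_congr_ae (.of_forall fun p => ?_)) a
      exact (mul_assoc _ _ _).trans (mul_comm _ _)
    rw [int_gau P fun x => u (x, 0) ^ 2 + S.gam u u (x, 0),
      int_gau P fun x => S.gam u u (x, 0) - (S.A2 (x, 0) + 1 / 2) * u (x, 0) ^ 2, e1, e2]
    simp only [e3, mul_pow, ← Finset.mul_sum]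
    rw [σ.sum_comp fun k => P.geo.gd.ip (ψ k).1 (S.rs 0 u) ^ 2]
    have hN := add_nonneg (P.geo.gd.n0_nonneg (S.rs 0 u)) (P.geo.gd.n1_nonneg (S.rs 0 u))
    generalize P.geo.gd.n0 (S.rs 0 u) + P.geo.gd.n1 (S.rs 0 u) = N at k hN
    generalize (4 * Real.pi)⁻¹ = a at ha ha1
    have e4 : ∀ s : ℝ, (c * a)⁻¹ * (a ^ 2 * s) = a * (c⁻¹ * s) := fun s => by field_simp
    rw [e4, ← mul_add]
    nlinarith [mul_le_mul_of_nonneg_left k ha.le,
      mul_nonneg (mul_nonneg (mul_nonneg hc.le ha.le) hN) (sub_nonneg.2 ha1)]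

end Crest.Agent.N250.Cn

end
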